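import Mathlib

namespace Vale.Agent.P249.Sub

open Finset

lemma exp_mul_le' {θ u : ℝ} (h0 : 0 ≤ u) (h1 : u ≤ 1) :
    Real.exp (θ * u) ≤ 1 + (Real.exp θ - 1) * u := by
  have h := convexOn_exp.2 (Set.mem_univ (0:ℝ)) (Set.mem_univ θ) (sub_nonneg.2 h1) h0
    (sub_add_cancel 1 u)
  simp only [smul_eq_mul, mul_zero, zero_add, Real.exp_zero, mul_one] at h
  rw [mul_comm θ u]
  linarith

/-- Derandomized sampling from a finite distribution: two-sided multiplicative bounds. -/
theorem sample2 {Ω P : Type*} [Fintype Ω] [Fintype P] (w : Ω → ℝ) (hw : ∀ o, 0 ≤ w o)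
    (hw1 : ∑ o, w o = 1) (u : P → Ω → ℝ) (h0 : ∀ e o, 0 ≤ u e o) (h1 : ∀ e o, u e o ≤ 1)
    {Λ : ℝ} (hΛ : Real.log (2 * Fintype.card P) ≤ Λ) (M : ℕ) :
    ∃ ω : Fin M → Ω, ∀ e,
      (∑ l, u e (ω l) ≤ 3 * max ((M:ℝ) * ∑ o, w o * u e o) Λ) ∧
      (4 * Λ ≤ (M:ℝ) * ∑ o, w o * u e o →
        (M:ℝ) * (∑ o, w o * u e o) / 3 ≤ ∑ l, u e (ω l)) := by
  classical
  set m : P → ℝ := fun e => ∑ o, w o * u e o with hm
  set a : ℝ := Real.exp 1 - 1 with ha
  set b : ℝ := 1 - Real.exp (-1) with hb
  set G : ∀ l : ℕ, (Fin l → Ω) → P → ℝ := fun l ω e =>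
    Real.exp ((∑ i, u e (ω i)) - a * l * m e) + Real.exp (-(∑ i, u e (ω i)) + b * l * m e) with hG
  have key : ∀ l : ℕ, ∃ ω : Fin l → Ω, ∑ e, G l ω e ≤ 2 * Fintype.card P := by
    intro l
    induction l with
    | zero => exact ⟨Fin.elim0, by simp [hG]; ring_nf; exact le_rfl⟩
    | succ l ih =>
      obtain ⟨ω, hω⟩ := ih
      have hmean : ∀ (θ : ℝ) e, ∑ o, w o * Real.exp (θ * u e o) ≤ Real.exp ((Real.exp θ - 1) * m e) := by
        intro θ e
        calc ∑ o, w o * Real.exp (θ * u e o)
            ≤ ∑ o, (w o + (Real.exp θ - 1) * (w o * u e o)) := by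
              refine sum_le_sum fun o _ => ?_
              have := mul_le_mul_of_nonneg_left (exp_mul_le' (θ := θ) (h0 e o) (h1 e o)) (hw o)
              linarith
          _ = 1 + (Real.exp θ - 1) * m e := by rw [sum_add_distrib, hw1, ← mul_sum]
          _ ≤ _ := by linarith [Real.add_one_le_exp ((Real.exp θ - 1) * m e)]
      have hstep : ∀ e, ∑ o, w o * G (l + 1) (Fin.cons o ω) e ≤ G l ω e := by
        intro e
        have h1' := hmean 1 e
        have h2' := hmean (-1) e
        simp only [one_mul, neg_mul] at h1' h2'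
        have e1 : ∀ o, G (l + 1) (Fin.cons o ω) e
            = Real.exp ((∑ i, u e (ω i)) - a * l * m e) * Real.exp (-(a * m e)) * Real.exp (u e o)
            + Real.exp (-(∑ i, u e (ω i)) + b * l * m e) * Real.exp (b * m e)
              * Real.exp (-(u e o)) := by
          intro o
          simp only [hG, Fin.sum_univ_succ, Fin.cons_zero, Fin.cons_succ, Nat.cast_add,
            Nat.cast_one, ← Real.exp_add]
          congr 1 <;> congr 1 <;> ring
        calc ∑ o, w o * G (l + 1) (Fin.cons o ω) e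
            = Real.exp ((∑ i, u e (ω i)) - a * l * m e) * Real.exp (-(a * m e))
                * (∑ o, w o * Real.exp (u e o))
              + Real.exp (-(∑ i, u e (ω i)) + b * l * m e) * Real.exp (b * m e)
                * (∑ o, w o * Real.exp (-(u e o))) := by
              simp only [e1, mul_add, sum_add_distrib, mul_sum]
              congr 1 <;> refine sum_congr rfl fun o _ => ?_ <;> ring
          _ ≤ Real.exp ((∑ i, u e (ω i)) - a * l * m e) * Real.exp (-(a * m e))
                * Real.exp (a * m e)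
              + Real.exp (-(∑ i, u e (ω i)) + b * l * m e) * Real.exp (b * m e)
                * Real.exp ((Real.exp (-1) - 1) * m e) := by
              gcongr
          _ = G l ω e := by
              simp only [hG, mul_assoc, ← Real.exp_add]
              congr 1 <;> congr 1 <;> ring
      have hsum : ∑ o, w o * ∑ e, G (l + 1) (Fin.cons o ω) e ≤ 2 * Fintype.card P := by
        simp_rw [mul_sum]
        rw [sum_comm]
        exact (sum_le_sum fun e _ => hstep e).trans hω
      by_contra hne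
      push Not at hne
      have hlt : ∑ o, w o * (2 * (Fintype.card P : ℝ))
          < ∑ o, w o * ∑ e, G (l + 1) (Fin.cons o ω) e := by
        have hpos : ∃ o, 0 < w o := by
          by_contra hh
          push Not at hh
          linarith [sum_nonpos fun o (_ : o ∈ (univ : Finset Ω)) => hh o]
        obtain ⟨o, ho⟩ := hpos
        exact sum_lt_sum (fun o _ => mul_le_mul_of_nonneg_left (hne _).le (hw o))
          ⟨o, mem_univ o, mul_lt_mul_of_pos_left (hne _) ho⟩
      rw [← sum_mul, hw1, one_mul] at hlt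
      linarith
  obtain ⟨ω, hω⟩ := key M
  refine ⟨ω, fun e => ?_⟩
  have hP : (0:ℝ) < 2 * Fintype.card P := by
    have : 0 < Fintype.card P := Fintype.card_pos_iff.2 ⟨e⟩
    positivity
  have hle : G M ω e ≤ Real.exp Λ := by
    refine ((single_le_sum (f := G M ω) (fun e' _ => by simp only [hG]; positivity)
      (mem_univ e)).trans hω).trans ?_
    rw [← Real.exp_log hP]
    exact Real.exp_le_exp.2 hΛ
  have hA : (∑ i, u e (ω i)) - a * M * m e ≤ Λ :=
    Real.exp_le_exp.1 (le_trans (le_add_of_nonneg_right (Real.exp_pos _).le) hle)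
  have hB : -(∑ i, u e (ω i)) + b * M * m e ≤ Λ :=
    Real.exp_le_exp.1 (le_trans (le_add_of_nonneg_left (Real.exp_pos _).le) hle)
  have hm0 : 0 ≤ (M:ℝ) * m e :=
    mul_nonneg (Nat.cast_nonneg _) (sum_nonneg fun o _ => mul_nonneg (hw o) (h0 e o))
  have e9 := Real.exp_one_lt_d9
  have e9' := Real.exp_neg_one_lt_d9
  constructor
  · have : a * M * m e ≤ 2 * ((M:ℝ) * m e) := by
      rw [mul_assoc]; exact mul_le_mul_of_nonneg_right (by rw [ha]; linarith) hm0
    have := le_max_left ((M:ℝ) * m e) Λ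
    have := le_max_right ((M:ℝ) * m e) Λ
    show _ ≤ 3 * max ((M:ℝ) * m e) Λ
    linarith
  · intro h4
    have h4' : 4 * Λ ≤ (M:ℝ) * m e := h4
    have : (0.62:ℝ) * ((M:ℝ) * m e) ≤ b * M * m e := by
      rw [mul_assoc b]; exact mul_le_mul_of_nonneg_right (by rw [hb]; linarith) hm0
    show (M:ℝ) * m e / 3 ≤ _
    linarith

end Vale.Agent.P249.Sub
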