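import Vale.Agent.P249.Sub.Nrm
import Vale.Agent.P249.Sub.Sample

namespace Vale.Agent.P249.Sub

open Finset

variable {p : ℝ}

/-- Radial retraction onto the ball of radius U. -/
noncomputable def retr {N : ℕ} (p U : ℝ) (v : Fin N → ℝ) : Fin N → ℝ :=
  if nrm p v ≤ U then v else (U / nrm p v) • v

lemma retr_norm (hp : 1 ≤ p) {N : ℕ} {U : ℝ} (hU : 0 < U) (v : Fin N → ℝ) :
    nrm p (retr p U v) ≤ U := by
  unfold retr
  split_ifs with h
  · exact h
  · rw [not_le] at h
    have h0 : 0 < nrm p v := hU.trans h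
    rw [nrm_smul hp, abs_of_pos (div_pos hU h0), div_mul_cancel₀ _ h0.ne']

lemma retr_lip (hp : 1 ≤ p) {N : ℕ} {U : ℝ} (hU : 0 < U) (u v : Fin N → ℝ) :
    nrm p (retr p U u - retr p U v) ≤ 2 * nrm p (u - v) := by
  have key : ∀ u v : Fin N → ℝ, nrm p u ≤ nrm p v →
      nrm p (retr p U u - retr p U v) ≤ 2 * nrm p (u - v) := by
    intro u v hle
    have hd := abs_le.1 (abs_nrm_sub_nrm hp u v)
    by_cases hv : nrm p v ≤ U
    · rw [retr, retr, if_pos (hle.trans hv), if_pos hv]
      linarith [nrm_nonneg (p := p) (u - v)]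
    · rw [not_le] at hv
      have h0 : 0 < nrm p v := hU.trans hv
      have hc : U / nrm p v ≤ 1 := (div_le_one h0).2 hv.le
      have hc0 : 0 ≤ U / nrm p v := (div_pos hU h0).le
      have ev : retr p U v = (U / nrm p v) • v := if_neg (not_le.2 hv)
      rw [ev]
      have h1 : nrm p (retr p U u - (U / nrm p v) • u) ≤ nrm p v - nrm p u := by
        by_cases hu : nrm p u ≤ U
        · rw [retr, if_pos hu, show u - (U / nrm p v) • u = (1 - U / nrm p v) • u by
            rw [sub_smul, one_smul], nrm_smul hp, abs_of_nonneg (sub_nonneg.2 hc)]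
          have e : (1 - U / nrm p v) * nrm p u = nrm p u / nrm p v * (nrm p v - U) := by
            field_simp
          rw [e]
          by_cases hcmp : nrm p v - U ≤ nrm p v - nrm p u
          · exact le_trans (mul_le_of_le_one_left (by linarith) ((div_le_one h0).2 hle)) hcmp
          · linarith
        · rw [not_le] at hu
          have hu0 : 0 < nrm p u := hU.trans hu
          rw [retr, if_neg (not_le.2 hu), ← sub_smul, nrm_smul hp]
          have h2 : U / nrm p v ≤ U / nrm p u := div_le_div_of_nonneg_left hU.le hu0 hle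
          rw [abs_of_nonneg (sub_nonneg.2 h2)]
          have e : (U / nrm p u - U / nrm p v) * nrm p u = U / nrm p v * (nrm p v - nrm p u) := by
            field_simp
          rw [e]
          exact mul_le_of_le_one_left (sub_nonneg.2 hle) hc
      have h3 : nrm p ((U / nrm p v) • u - (U / nrm p v) • v) ≤ nrm p (u - v) := by
        rw [← smul_sub, nrm_smul hp, abs_of_nonneg hc0]
        exact mul_le_of_le_one_left (nrm_nonneg _) hc
      have := nrm_sub_le_sub hp (retr p U u) ((U / nrm p v) • u) ((U / nrm p v) • v)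
      linarith
  rcases le_total (nrm p u) (nrm p v) with h | h
  · exact key u v h
  · rw [nrm_sub_comm, nrm_sub_comm u v]; exact key v u h

/-- Truncation at level η. -/
noncomputable def cut (η t : ℝ) : ℝ := max (-η) (min η t)

lemma cut_abs {η : ℝ} (hη : 0 ≤ η) (t : ℝ) : |cut η t| ≤ η :=
  abs_le.2 ⟨le_max_left _ _, max_le (by linarith) (min_le_left _ _)⟩

lemma cut_of_small {η t : ℝ} (h : |t| ≤ η) : cut η t = t := by
  obtain ⟨h1, h2⟩ := abs_le.1 h
  rw [cut, min_eq_right h2, max_eq_right h1]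

lemma cut_lip (η a b : ℝ) : |cut η a - cut η b| ≤ |a - b| := by
  unfold cut
  refine (abs_max_sub_max_le_max _ _ _ _).trans (max_le (by simp) ?_)
  exact (abs_min_sub_min_le_max _ _ _ _).trans (max_le (by simp) le_rfl)

lemma soft_lip {η : ℝ} (hη : 0 ≤ η) (a b : ℝ) :
    |(a - cut η a) - (b - cut η b)| ≤ |a - b| := by
  have key : ∀ a b : ℝ, b ≤ a → |(a - cut η a) - (b - cut η b)| ≤ |a - b| := by
    intro a b h
    have h1 : cut η b ≤ cut η a := max_le_max le_rfl (min_le_min le_rfl h)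
    have h2 := le_of_abs_le (cut_lip η a b)
    rw [abs_of_nonneg (sub_nonneg.2 h)] at h2 ⊢
    rw [abs_le]
    constructor <;> linarith
  rcases le_total b a with h | h
  · exact key a b h
  · rw [abs_sub_comm, abs_sub_comm a b]; exact key b a h

lemma nrm_mono (hp : 1 ≤ p) {N : ℕ} {u v : Fin N → ℝ} (h : ∀ k, |u k| ≤ |v k|) :
    nrm p u ≤ nrm p v := by
  refine nrm_le_of_psum_le hp (nrm_nonneg _) ?_
  rw [nrm_rpow hp]
  exact sum_le_sum fun k _ => Real.rpow_le_rpow (abs_nonneg _) (h k) (by linarith)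

lemma supp_card (hp : 1 ≤ p) {N : ℕ} {U η : ℝ} (hη : 0 < η) {v : Fin N → ℝ}
    (hv : nrm p v ≤ U) :
    ((univ.filter fun k => v k - cut η (v k) ≠ 0).card : ℝ) ≤ (U / η) ^ p := by
  rw [Real.div_rpow ((nrm_nonneg v).trans hv) hη.le, le_div_iff₀ (Real.rpow_pos_of_pos hη p)]
  refine le_trans ?_ (Real.rpow_le_rpow (nrm_nonneg v) hv (by linarith))
  rw [nrm_rpow hp, ← nsmul_eq_mul]
  refine le_trans (card_nsmul_le_sum _ (fun k => |v k| ^ p) _ fun k hk => ?_)
    (sum_le_sum_of_subset_of_nonneg (subset_univ _) fun k _ _ => Real.rpow_nonneg (abs_nonneg _) _)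
  refine Real.rpow_le_rpow hη.le ?_ (by linarith)
  by_contra h
  exact (mem_filter.1 hk).2 (by rw [cut_of_small (not_le.1 h).le, sub_self])

/-- The number of functions identifying two given points. -/
lemma card_collide {N B : ℕ} {k k' : Fin N} (h : k ≠ k') :
    (univ.filter fun f : Fin N → Fin B => f k = f k').card * B
      ≤ Fintype.card (Fin N → Fin B) := by
  classical
  have e1 : (univ.filter fun f : Fin N → Fin B => f k = f k').card
      ≤ Fintype.card ({j : Fin N // j ≠ k} → Fin B) := by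
    rw [← card_univ]
    refine card_le_card_of_injOn (fun f j => f j.1) (fun f _ => mem_univ _) fun f hf g hg hfg => ?_
    funext j
    by_cases hj : j = k
    · rw [hj, (mem_filter.1 hf).2, (mem_filter.1 hg).2]
      exact congrFun hfg ⟨k', Ne.symm h⟩
    · exact congrFun hfg ⟨j, hj⟩
  refine (Nat.mul_le_mul_right B e1).trans (le_of_eq ?_)
  rw [← Fintype.card_congr (Equiv.piSplitAt k fun _ : Fin N => Fin B).symm, Fintype.card_prod,
    Fintype.card_fin, mul_comm]

/-- Hashing sparse vectors keeps their norms up to constants. -/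
theorem exists_hash (hp : 1 ≤ p) {P : Type} [Fintype P] {N : ℕ} (h : P → Fin N → ℝ) {q K : ℕ}
    (hq : p ≤ q) (hK : 1 ≤ K) (hsupp : ∀ e, (univ.filter fun k => h e k ≠ 0).card ≤ K) {M : ℕ}
    (hM1 : 1 ≤ M) (hM : 6 * (2 * (K:ℝ)) ^ q * Real.log (2 * (Fintype.card (P × P) : ℝ)) ≤ M) :
    ∃ F : P → Fin M × Fin (24 * K ^ 2 * (2 * K) ^ q) → ℝ, ∀ e0 e1,
      nrm p (F e0 - F e1) ≤ 2 * nrm p (h e0 - h e1) ∧
        nrm p (h e0 - h e1) / 2 ≤ nrm p (F e0 - F e1) := by
  classical
  set B := 24 * K ^ 2 * (2 * K) ^ q with hBdef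
  have hB0 : 0 < B := by rw [hBdef]; exact Nat.mul_pos (by positivity) (by positivity)
  set L : ℝ := (2 * (K:ℝ)) ^ q with hL
  have hL1 : 1 ≤ L := one_le_pow₀ (by exact_mod_cast (show 1 ≤ 2 * K by omega))
  have hBr : (B:ℝ) = 24 * (K:ℝ) ^ 2 * L := by rw [hBdef, hL]; push_cast; ring
  set S : P × P → Finset (Fin N) := fun e =>
    (univ.filter fun k => h e.1 k ≠ 0) ∪ (univ.filter fun k => h e.2 k ≠ 0) with hS
  have hScard : ∀ e, (S e).card ≤ 2 * K := fun e =>
    (card_union_le _ _).trans (by have := hsupp e.1; have := hsupp e.2; omega)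
  have hzero : ∀ e k, k ∉ S e → h e.1 k - h e.2 k = 0 := by
    intro e k hk
    simp only [hS, mem_union, mem_filter, mem_univ, true_and, not_or, not_not] at hk
    rw [hk.1, hk.2, sub_self]
  let bad : P × P → (Fin N → Fin B) → Prop := fun e f => ¬ Set.InjOn f (S e : Set (Fin N))
  set u : P × P → (Fin N → Fin B) → ℝ := fun e f => if bad e f then 1 else 0 with hu
  set cΩ : ℝ := ((Fintype.card (Fin N → Fin B) : ℕ) : ℝ) with hcΩ
  have hcΩ0 : 0 < cΩ := by
    rw [hcΩ, Fintype.card_fun, Fintype.card_fin, Fintype.card_fin]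
    exact_mod_cast pow_pos hB0 N
  have hbad : ∀ e, ∑ f, cΩ⁻¹ * u e f ≤ 1 / (6 * L) := by
    intro e
    set pr := ((S e) ×ˢ (S e)).filter fun w => w.1 ≠ w.2 with hpr
    have hsub : (univ.filter fun f => bad e f)
        ⊆ pr.biUnion fun w => univ.filter fun f : Fin N → Fin B => f w.1 = f w.2 := by
      intro f hf
      have hf' := (mem_filter.1 hf).2
      simp only [bad, Set.InjOn] at hf'
      push Not at hf'
      obtain ⟨a, ha, b, hb, hab, hne⟩ := hf'
      exact mem_biUnion.2 ⟨(a, b), mem_filter.2 ⟨mem_product.2 ⟨ha, hb⟩, hne⟩,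
        mem_filter.2 ⟨mem_univ f, hab⟩⟩
    have hcnt : (univ.filter fun f => bad e f).card * B
        ≤ 4 * K ^ 2 * Fintype.card (Fin N → Fin B) := by
      refine (Nat.mul_le_mul_right B ((card_le_card hsub).trans card_biUnion_le)).trans ?_
      rw [sum_mul]
      refine (sum_le_card_nsmul _ _ (Fintype.card (Fin N → Fin B)) fun w hw =>
        card_collide (mem_filter.1 hw).2).trans ?_
      rw [smul_eq_mul]
      refine Nat.mul_le_mul_right _ ?_
      calc pr.card ≤ ((S e) ×ˢ (S e)).card := card_filter_le _ _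
        _ = (S e).card * (S e).card := card_product _ _
        _ ≤ (2 * K) * (2 * K) := Nat.mul_le_mul (hScard e) (hScard e)
        _ = _ := by ring
    have hcntR : ((univ.filter fun f => bad e f).card : ℝ) * B ≤ 4 * (K:ℝ) ^ 2 * cΩ := by
      rw [hcΩ]; exact_mod_cast hcnt
    rw [hBr] at hcntR
    have hsum : ∑ f, u e f = ((univ.filter fun f => bad e f).card : ℝ) := by
      rw [Finset.card_filter, Nat.cast_sum]
      refine sum_congr rfl fun f _ => ?_
      simp only [hu]
      split_ifs <;> simp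
    rw [← mul_sum, hsum, inv_mul_le_iff₀ hcΩ0, mul_one_div, le_div_iff₀ (by positivity)]
    have hK2 : (0:ℝ) < (K:ℝ) ^ 2 := by positivity
    nlinarith
  obtain ⟨ω, hω⟩ := sample2 (fun _ : Fin N → Fin B => cΩ⁻¹) (fun _ => (inv_pos.2 hcΩ0).le)
    (by rw [sum_const, card_univ, nsmul_eq_mul]; exact mul_inv_cancel₀ hcΩ0.ne') u
    (fun e f => by simp only [hu]; split_ifs <;> norm_num)
    (fun e f => by simp only [hu]; split_ifs <;> norm_num)
    (le_refl (Real.log (2 * (Fintype.card (P × P) : ℝ)))) M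
  refine ⟨fun e q' => (Fintype.card (Fin M) : ℝ) ^ (-(1 / p)) *
    ∑ k ∈ univ.filter (fun k => ω q'.1 k = q'.2), h e k, fun e0 e1 => ?_⟩
  set g : Fin M → Fin B → ℝ := fun l b =>
    ∑ k ∈ univ.filter (fun k => ω l k = b), (h e0 k - h e1 k) with hg
  set N0 := nrm p (h e0 - h e1) with hN0
  have hN00 : 0 ≤ N0 := nrm_nonneg _
  have hgood : ∀ l, ¬ bad (e0, e1) (ω l) → nrm p (g l) = N0 := by
    intro l hl
    simp only [bad, not_not] at hl
    rw [hN0, nrm, nrm]
    congr 1
    rw [← sum_fiberwise univ (ω l) fun k => |(h e0 - h e1) k| ^ p]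
    refine sum_congr rfl fun b _ => ?_
    by_cases hb : ∃ k ∈ S (e0, e1), ω l k = b
    · obtain ⟨k, hk, hkb⟩ := hb
      have hone : ∀ j ∈ univ.filter (fun j => ω l j = b), j ≠ k → h e0 j - h e1 j = 0 := by
        intro j hj hjk
        refine hzero (e0, e1) j fun hjS => hjk (hl (mem_coe.2 hjS) (mem_coe.2 hk) ?_)
        rw [(mem_filter.1 hj).2, hkb]
      simp only [hg, Pi.sub_apply]
      rw [sum_eq_single_of_mem k (by simp [hkb]) hone,
        sum_eq_single_of_mem k (by simp [hkb]) fun j hj hjk => by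
          rw [hone j hj hjk, abs_zero, Real.zero_rpow (show p ≠ 0 by linarith)]]
    · push Not at hb
      have hall : ∀ j ∈ univ.filter (fun j => ω l j = b), h e0 j - h e1 j = 0 := fun j hj =>
        hzero (e0, e1) j fun hjS => hb j hjS (mem_filter.1 hj).2
      simp only [hg, Pi.sub_apply]
      rw [sum_eq_zero hall, abs_zero, Real.zero_rpow (show p ≠ 0 by linarith), sum_eq_zero]
      intro j hj
      rw [hall j hj, abs_zero, Real.zero_rpow (show p ≠ 0 by linarith)]
  have hany : ∀ l, nrm p (g l) ≤ 2 * K * N0 := by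
    intro l
    have e : g l = ∑ k ∈ S (e0, e1), fun b => if ω l k = b then h e0 k - h e1 k else 0 := by
      funext b
      simp only [hg, Finset.sum_apply, sum_filter]
      refine (sum_subset (subset_univ _) fun k _ hk => ?_).symm
      rw [hzero (e0, e1) k hk, ite_self]
    rw [e]
    refine (nrm_sum_le hp _ _).trans ?_
    refine (sum_le_card_nsmul _ _ N0 fun k _ => ?_).trans ?_
    · refine nrm_le_of_psum_le hp hN00 ?_
      rw [Fintype.sum_eq_single (ω l k) fun b hb => by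
        rw [if_neg (Ne.symm hb), abs_zero, Real.zero_rpow (show p ≠ 0 by linarith)], if_pos rfl,
        hN0, nrm_rpow hp]
      exact single_le_sum (f := fun j => |(h e0 - h e1) j| ^ p)
        (fun j _ => Real.rpow_nonneg (abs_nonneg _) _) (mem_univ k)
    · rw [nsmul_eq_mul]
      exact mul_le_mul_of_nonneg_right (by exact_mod_cast hScard (e0, e1)) hN00
  have eΔ : (fun q' : Fin M × Fin B => (Fintype.card (Fin M) : ℝ) ^ (-(1 / p)) *
        ∑ k ∈ univ.filter (fun k => ω q'.1 k = q'.2), h e0 k)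
      - (fun q' : Fin M × Fin B => (Fintype.card (Fin M) : ℝ) ^ (-(1 / p)) *
        ∑ k ∈ univ.filter (fun k => ω q'.1 k = q'.2), h e1 k)
      = fun q' => (Fintype.card (Fin M) : ℝ) ^ (-(1 / p)) * g q'.1 q'.2 := by
    funext q'; simp only [hg, Pi.sub_apply, sum_sub_distrib, mul_sub]
  simp only []
  rw [eΔ]
  set nb := (univ.filter fun l => bad (e0, e1) (ω l)).card with hnb
  have hMr : (0:ℝ) < M := by exact_mod_cast hM1
  have hnbM : (nb:ℝ) ≤ (M:ℝ) / (2 * L) := by
    have h1 := (hω (e0, e1)).1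
    have e : ∑ l, u (e0, e1) (ω l) = (nb:ℝ) := by
      rw [hnb, Finset.card_filter, Nat.cast_sum]
      refine sum_congr rfl fun l _ => ?_
      simp only [hu]
      split_ifs <;> simp
    rw [e] at h1
    refine h1.trans ?_
    rw [mul_max_of_nonneg _ _ (by norm_num : (0:ℝ) ≤ 3)]
    refine max_le ?_ ?_
    · have h2 := mul_le_mul_of_nonneg_left (hbad (e0, e1)) hMr.le
      calc 3 * ((M:ℝ) * ∑ f, cΩ⁻¹ * u (e0, e1) f) ≤ 3 * ((M:ℝ) * (1 / (6 * L))) := by linarith
        _ = (M:ℝ) / (2 * L) := by field_simp; ring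
    · rw [le_div_iff₀ (by positivity)]
      linarith
  constructor
  · refine nrm_le_of_psum_le hp (by positivity) ?_
    rw [Fintype.sum_prod_type, Fintype.card_fin]
    have hp0 : 0 ≤ p := by linarith
    have hterm : ∀ l, ∑ b, |(M:ℝ) ^ (-(1 / p)) * g l b| ^ p
        ≤ (M:ℝ)⁻¹ * ((1 + (if bad (e0, e1) (ω l) then L else 0)) * N0 ^ p) := by
      intro l
      simp only [abs_mul, abs_of_nonneg (Real.rpow_nonneg hMr.le _),
        Real.mul_rpow (Real.rpow_nonneg hMr.le _) (abs_nonneg _), ← mul_sum]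
      rw [← Real.rpow_mul hMr.le, neg_mul, one_div, inv_mul_cancel₀ (by linarith),
        Real.rpow_neg_one, ← nrm_rpow hp]
      refine mul_le_mul_of_nonneg_left ?_ (by positivity)
      split_ifs with hb
      · calc nrm p (g l) ^ p ≤ (2 * K * N0) ^ p := Real.rpow_le_rpow (nrm_nonneg _) (hany l) hp0
          _ = (2 * (K:ℝ)) ^ p * N0 ^ p := Real.mul_rpow (by positivity) hN00
          _ ≤ L * N0 ^ p := by
              refine mul_le_mul_of_nonneg_right ?_ (Real.rpow_nonneg hN00 p)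
              rw [hL, ← Real.rpow_natCast]
              exact Real.rpow_le_rpow_of_exponent_le (by exact_mod_cast (show 1 ≤ 2 * K by omega)) hq
          _ ≤ _ := mul_le_mul_of_nonneg_right (by linarith) (Real.rpow_nonneg hN00 p)
      · rw [hgood l hb]; linarith [Real.rpow_nonneg hN00 p]
    refine (sum_le_sum fun l _ => hterm l).trans ?_
    rw [← mul_sum, ← sum_mul, sum_add_distrib, sum_const, card_univ, Fintype.card_fin, nsmul_one,
      ← sum_filter, sum_const, nsmul_eq_mul, ← hnb, Real.mul_rpow zero_le_two hN00, ← mul_assoc]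
    refine mul_le_mul_of_nonneg_right ?_ (Real.rpow_nonneg hN00 p)
    rw [inv_mul_le_iff₀ hMr]
    have h2 : (2:ℝ) ≤ 2 ^ p := Real.self_le_rpow_of_one_le one_le_two hp
    have h3 : (nb:ℝ) * L ≤ (M:ℝ) / 2 := by
      calc (nb:ℝ) * L ≤ (M:ℝ) / (2 * L) * L := mul_le_mul_of_nonneg_right hnbM (by linarith)
        _ = _ := by field_simp
    have h4 := mul_le_mul_of_nonneg_left h2 hMr.le
    linarith
  · rw [div_eq_inv_mul, ← one_div]
    refine le_nrm_avg hp g (univ.filter fun l => ¬ bad (e0, e1) (ω l)) hN00 (by norm_num)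
      (by norm_num) (by rw [Fintype.card_fin]; exact hM1) ?_ fun l hl => (hgood l (mem_filter.1 hl).2).ge
    rw [Fintype.card_fin]
    have e := card_filter_add_card_filter_not (s := (univ : Finset (Fin M)))
      (fun l => bad (e0, e1) (ω l))
    rw [card_univ, Fintype.card_fin] at e
    have e' : ((univ.filter fun l => bad (e0, e1) (ω l)).card : ℝ)
        + ((univ.filter fun l => ¬ bad (e0, e1) (ω l)).card : ℝ) = (M:ℝ) := by exact_mod_cast e
    have : (M:ℝ) / (2 * L) ≤ (M:ℝ) / 2 :=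
      div_le_div_of_nonneg_left hMr.le (by norm_num) (by linarith)
    rw [← hnb] at e'
    linarith

/-- Sampling coordinates of vectors with small entries. -/
theorem exists_coord_sample (hp : 1 ≤ p) {P : Type} [Fintype P] {N : ℕ} (s : P → Fin N → ℝ)
    {η fl : ℝ} (hη : 0 < η) (hfl : 0 < fl) (hs : ∀ e k, |s e k| ≤ η) {M : ℕ} (hM1 : 1 ≤ M)
    (hM : 4 * Real.log (2 * (Fintype.card (P × P) : ℝ)) * N * ((2 * η) / fl) ^ p ≤ M) :
    ∃ F : P → Fin M → ℝ, ∀ e0 e1,
      nrm p (F e0 - F e1) ≤ 3 * max (nrm p (s e0 - s e1)) fl ∧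
        (fl ≤ nrm p (s e0 - s e1) → nrm p (s e0 - s e1) / 3 ≤ nrm p (F e0 - F e1)) := by
  classical
  have hp0 : 0 < p := by linarith
  rcases Nat.eq_zero_or_pos N with hN | hN
  · subst hN
    refine ⟨fun _ _ => 0, fun e0 e1 => ⟨?_, fun h => ?_⟩⟩
    · rw [sub_self]
      have : nrm p (0 : Fin M → ℝ) = 0 := nrm_zero hp
      exact this.le.trans (mul_nonneg (by norm_num) (le_max_of_le_right hfl.le))
    · exfalso
      have : s e0 - s e1 = 0 := Subsingleton.elim _ _
      rw [this, nrm_zero hp] at h; linarith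
  have hNr : (0:ℝ) < N := by exact_mod_cast hN
  have h2η : 0 < (2 * η) ^ p := Real.rpow_pos_of_pos (by positivity) p
  set Λ := Real.log (2 * (Fintype.card (P × P) : ℝ)) with hΛ
  set u : P × P → Fin N → ℝ := fun e k => |s e.1 k - s e.2 k| ^ p / (2 * η) ^ p with hu
  obtain ⟨ω, hω⟩ := sample2 (fun _ : Fin N => (N:ℝ)⁻¹) (fun _ => by positivity)
    (by rw [sum_const, card_univ, Fintype.card_fin, nsmul_eq_mul, mul_inv_cancel₀ hNr.ne']) u
    (fun e k => div_nonneg (Real.rpow_nonneg (abs_nonneg _) _) h2η.le)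
    (fun e k => (div_le_one h2η).2 (Real.rpow_le_rpow (abs_nonneg _)
      ((abs_sub _ _).trans (by linarith [hs e.1 k, hs e.2 k])) hp0.le))
    (le_refl Λ) M
  have hMr : (0:ℝ) < M := by exact_mod_cast hM1
  set c := ((N:ℝ) / M) ^ (1 / p) with hc
  have hc0 : 0 ≤ c := Real.rpow_nonneg (by positivity) _
  refine ⟨fun e l => c * s e (ω l), fun e0 e1 => ?_⟩
  obtain ⟨hup, hlo⟩ := hω (e0, e1)
  set N0 := nrm p (s e0 - s e1) with hN0
  have hN00 : 0 ≤ N0 := nrm_nonneg _
  have hmean : (M:ℝ) * ∑ k, (N:ℝ)⁻¹ * u (e0, e1) k = (M:ℝ) / N * (N0 ^ p / (2 * η) ^ p) := by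
    rw [← mul_sum, hN0, nrm_rpow hp, sum_div]
    simp only [hu, Pi.sub_apply]
    ring
  have hF : ∑ l, |c * s e0 (ω l) - c * s e1 (ω l)| ^ p
      = (N:ℝ) / M * (2 * η) ^ p * ∑ l, u (e0, e1) (ω l) := by
    rw [mul_sum]
    refine sum_congr rfl fun l _ => ?_
    rw [← mul_sub, abs_mul, abs_of_nonneg hc0, Real.mul_rpow hc0 (abs_nonneg _), hc,
      ← Real.rpow_mul (by positivity), one_div, inv_mul_cancel₀ hp0.ne', Real.rpow_one]
    simp only [hu]
    field_simp
  have hΛfl : 4 * Λ ≤ (M:ℝ) / N * (fl ^ p / (2 * η) ^ p) := by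
    rw [Real.div_rpow (by positivity) hfl.le] at hM
    rw [div_mul_div_comm, le_div_iff₀ (by positivity)]
    have := mul_le_mul_of_nonneg_right hM (Real.rpow_nonneg hfl.le p)
    rw [show 4 * Λ * N * ((2 * η) ^ p / fl ^ p) * fl ^ p = 4 * Λ * (N * (2 * η) ^ p) by
      field_simp [(Real.rpow_pos_of_pos hfl p).ne']] at this
    linarith
  rw [hmean] at hup hlo
  constructor
  · refine nrm_le_of_psum_le hp (mul_nonneg (by norm_num) (le_max_of_le_left hN00)) ?_
    simp only [Pi.sub_apply]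
    rw [hF, Real.mul_rpow (by norm_num) (le_max_of_le_left hN00)]
    calc (N:ℝ) / M * (2 * η) ^ p * ∑ l, u (e0, e1) (ω l)
        ≤ (N:ℝ) / M * (2 * η) ^ p
            * (3 * max ((M:ℝ) / N * (N0 ^ p / (2 * η) ^ p)) Λ) :=
          mul_le_mul_of_nonneg_left hup (by positivity)
      _ ≤ (N:ℝ) / M * (2 * η) ^ p * (3 * ((M:ℝ) / N * (max N0 fl ^ p / (2 * η) ^ p))) := by
          refine mul_le_mul_of_nonneg_left (mul_le_mul_of_nonneg_left (max_le ?_ ?_) (by norm_num))
            (by positivity)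
          · exact mul_le_mul_of_nonneg_left (div_le_div_of_nonneg_right
              (Real.rpow_le_rpow hN00 (le_max_left _ _) hp0.le) h2η.le) (by positivity)
          · have hb : 0 ≤ (M:ℝ) / N * (fl ^ p / (2 * η) ^ p) :=
              mul_nonneg (by positivity) (div_nonneg (Real.rpow_nonneg hfl.le p) h2η.le)
            refine le_trans (by linarith : Λ ≤ (M:ℝ) / N * (fl ^ p / (2 * η) ^ p)) ?_
            exact mul_le_mul_of_nonneg_left (div_le_div_of_nonneg_right
              (Real.rpow_le_rpow hfl.le (le_max_right _ _) hp0.le) h2η.le) (by positivity)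
      _ = 3 * max N0 fl ^ p := by field_simp
      _ ≤ _ := mul_le_mul_of_nonneg_right (Real.self_le_rpow_of_one_le (by norm_num) hp)
          (Real.rpow_nonneg (le_max_of_le_left hN00) p)
  · intro hge
    refine le_nrm_of_le_psum hp (by positivity) ?_
    simp only [Pi.sub_apply]
    rw [hF]
    have h5 := hlo (hΛfl.trans (mul_le_mul_of_nonneg_left (div_le_div_of_nonneg_right
      (Real.rpow_le_rpow hfl.le hge hp0.le) h2η.le) (by positivity)))
    calc (N0 / 3) ^ p ≤ N0 ^ p / 3 := by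
          rw [Real.div_rpow hN00 (by norm_num)]
          exact div_le_div_of_nonneg_left (Real.rpow_nonneg hN00 p) (by norm_num)
            (Real.self_le_rpow_of_one_le (by norm_num) hp)
      _ = (N:ℝ) / M * (2 * η) ^ p * ((M:ℝ) / N * (N0 ^ p / (2 * η) ^ p) / 3) := by field_simp
      _ ≤ _ := mul_le_mul_of_nonneg_left h5 (by positivity)

/-- Padding with zeros. -/
noncomputable def pad0 {d d0 : ℕ} (v : Fin d → ℝ) (k : Fin d0) : ℝ :=
  if h : (k:ℕ) < d then v ⟨k, h⟩ else 0

lemma nrm_pad0 (hp : 1 ≤ p) {d d0 : ℕ} (h : d ≤ d0) (v : Fin d → ℝ) :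
    nrm p (pad0 v : Fin d0 → ℝ) = nrm p v := by
  unfold nrm
  congr 1
  obtain ⟨k, rfl⟩ := Nat.exists_eq_add_of_le h
  rw [Fin.sum_univ_add]
  have h0 : ∀ i : Fin k, |(pad0 v : Fin (d + k) → ℝ) (Fin.natAdd d i)| ^ p = 0 := fun i => by
    simp [pad0, Real.zero_rpow (show p ≠ 0 by linarith)]
  simp only [h0, sum_const_zero, add_zero]
  refine sum_congr rfl fun i _ => ?_
  simp [pad0]

/-- The single-window feature, for every exponent: Lipschitz above the floor fl and bi-Lipschitz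
above it on vectors of norm at most U. -/
theorem exists_split (hp : 1 ≤ p) {P : Type} [Fintype P] {N : ℕ} (a : P → Fin N → ℝ) {q L : ℕ}
    (hq : p ≤ q) (hL : 1 ≤ L) {U fl : ℝ} (hU : 0 < U) (hfl : 0 < fl) {M1 M2 M : ℕ}
    (hM11 : 1 ≤ M1) (hM21 : 1 ≤ M2)
    (hM1 : 6 * (2 * (((L ^ q : ℕ)):ℝ)) ^ q * Real.log (2 * (Fintype.card (P × P) : ℝ)) ≤ M1)
    (hM2 : 4 * Real.log (2 * (Fintype.card (P × P) : ℝ)) * N * ((4 * (U / L)) / fl) ^ p ≤ M2)
    (hM : M1 * (24 * (L ^ q) ^ 2 * (2 * L ^ q) ^ q) + M2 ≤ M) :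
    ∃ F : P → Fin M → ℝ, ∀ e0 e1,
      nrm p (F e0 - F e1) ≤ 20 * max (nrm p (a e0 - a e1)) fl ∧
      (nrm p (a e0) ≤ U → nrm p (a e1) ≤ U → fl ≤ nrm p (a e0 - a e1) →
        nrm p (a e0 - a e1) / 6 ≤ nrm p (F e0 - F e1)) := by
  classical
  have hp0 : 0 < p := by linarith
  have hLr : (1:ℝ) ≤ L := by exact_mod_cast hL
  set η := U / L with hη
  have hη0 : 0 < η := by positivity
  set b : P → Fin N → ℝ := fun e => retr p U (a e) with hb
  set hh : P → Fin N → ℝ := fun e k => b e k - cut η (b e k) with hhh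
  set ss : P → Fin N → ℝ := fun e k => cut η (b e k) with hss
  obtain ⟨F1, hF1⟩ := exists_hash hp hh (q := q) (K := L ^ q) hq (Nat.one_le_pow _ _ hL)
    (fun e => by
      have := supp_card hp hη0 (retr_norm hp hU (a e))
      have h2 : (U / η) ^ p ≤ ((L ^ q : ℕ) : ℝ) := by
        rw [hη, div_div_eq_mul_div, mul_div_cancel_left₀ _ hU.ne', Nat.cast_pow, ← Real.rpow_natCast]
        exact Real.rpow_le_rpow_of_exponent_le hLr hq
      exact_mod_cast this.trans h2)
    hM11 hM1
  obtain ⟨F2, hF2⟩ := exists_coord_sample hp ss (η := η) (fl := fl / 2) hη0 (by positivity)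
    (fun e k => cut_abs hη0.le _) hM21 (by
      rw [show 2 * η / (fl / 2) = 4 * η / fl by field_simp; ring]; exact hM2)
  let ι := (Fin M1 × Fin (24 * (L ^ q) ^ 2 * (2 * L ^ q) ^ q)) ⊕ Fin M2
  have hι : Fintype.card ι ≤ M := by simpa [ι] using hM
  refine ⟨fun e => pad0 (fun k => Sum.elim (F1 e) (F2 e) ((Fintype.equivFin ι).symm k)), fun e0 e1 => ?_⟩
  set Δ : ι → ℝ := Sum.elim (F1 e0) (F2 e0) - Sum.elim (F1 e1) (F2 e1) with hΔ
  have e : nrm p ((pad0 (fun k => Sum.elim (F1 e0) (F2 e0) ((Fintype.equivFin ι).symm k)) : Fin M → ℝ)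
      - pad0 (fun k => Sum.elim (F1 e1) (F2 e1) ((Fintype.equivFin ι).symm k))) = nrm p Δ := by
    rw [show (pad0 (fun k => Sum.elim (F1 e0) (F2 e0) ((Fintype.equivFin ι).symm k)) : Fin M → ℝ)
      - pad0 (fun k => Sum.elim (F1 e1) (F2 e1) ((Fintype.equivFin ι).symm k))
      = pad0 (fun k => Δ ((Fintype.equivFin ι).symm k)) by
        funext k; simp only [Pi.sub_apply, pad0, hΔ]; split_ifs <;> simp,
      nrm_pad0 hp hι, nrm_comp_equiv]
  simp only []
  rw [e]
  have el : (fun i => Δ (Sum.inl i)) = F1 e0 - F1 e1 := by funext i; simp [hΔ]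
  have er : (fun i => Δ (Sum.inr i)) = F2 e0 - F2 e1 := by funext i; simp [hΔ]
  obtain ⟨u1, l1⟩ := hF1 e0 e1
  obtain ⟨u2, l2⟩ := hF2 e0 e1
  have hh1 : nrm p (hh e0 - hh e1) ≤ nrm p (b e0 - b e1) :=
    nrm_mono hp fun k => soft_lip hη0.le _ _
  have hs1 : nrm p (ss e0 - ss e1) ≤ nrm p (b e0 - b e1) := nrm_mono hp fun k => cut_lip _ _ _
  have hb1 : nrm p (b e0 - b e1) ≤ 2 * nrm p (a e0 - a e1) := retr_lip hp hU _ _
  constructor
  · refine (nrm_le_inl_add_inr hp Δ).trans ?_
    rw [el, er]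
    have m1 : max (nrm p (ss e0 - ss e1)) (fl / 2) ≤ 2 * max (nrm p (a e0 - a e1)) fl :=
      max_le (by linarith [le_max_left (nrm p (a e0 - a e1)) fl])
        (by linarith [le_max_right (nrm p (a e0 - a e1)) fl])
    have := le_max_left (nrm p (a e0 - a e1)) fl
    have := le_max_right (nrm p (a e0 - a e1)) fl
    linarith
  · intro h0 h1 hfle
    have hb0 : b e0 - b e1 = a e0 - a e1 := by simp only [hb, retr, if_pos h0, if_pos h1]
    have hsum : nrm p (a e0 - a e1) ≤ nrm p (hh e0 - hh e1) + nrm p (ss e0 - ss e1) := by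
      rw [← hb0]
      refine le_trans (le_of_eq ?_) (nrm_add_le hp _ _)
      congr 1; funext k; simp only [hhh, hss, Pi.sub_apply, Pi.add_apply]; ring
    by_cases hcase : nrm p (a e0 - a e1) / 2 ≤ nrm p (hh e0 - hh e1)
    · have := nrm_inl_le hp Δ
      rw [el] at this
      linarith
    · have hs2 : nrm p (a e0 - a e1) / 2 ≤ nrm p (ss e0 - ss e1) := by linarith
      have := l2 (by linarith)
      have h3 := nrm_inr_le hp Δ
      rw [er] at h3
      linarith

end Vale.Agent.P249.Sub
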