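import Mathlib

namespace Vale.Agent.P249.Sub

open Finset

variable {ι κ : Type*} [Fintype ι] [Fintype κ] {p : ℝ}

/-- The ℓ_p norm on a finite product of copies of the reals. -/
noncomputable def nrm (p : ℝ) (v : ι → ℝ) : ℝ := (∑ i, |v i| ^ p) ^ (1 / p)

lemma psum_nonneg (v : ι → ℝ) : 0 ≤ ∑ i, |v i| ^ p :=
  sum_nonneg fun i _ => Real.rpow_nonneg (abs_nonneg _) _

lemma nrm_nonneg (v : ι → ℝ) : 0 ≤ nrm p v := Real.rpow_nonneg (psum_nonneg v) _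

lemma nrm_rpow (hp : 1 ≤ p) (v : ι → ℝ) : nrm p v ^ p = ∑ i, |v i| ^ p := by
  rw [nrm, ← Real.rpow_mul (psum_nonneg v), one_div, inv_mul_cancel₀ (by linarith), Real.rpow_one]

lemma nrm_le_of_psum_le (hp : 1 ≤ p) {v : ι → ℝ} {c : ℝ} (hc : 0 ≤ c)
    (h : ∑ i, |v i| ^ p ≤ c ^ p) : nrm p v ≤ c := by
  rw [← Real.rpow_le_rpow_iff (nrm_nonneg v) hc (show (0:ℝ) < p by linarith), nrm_rpow hp]
  exact h

lemma le_nrm_of_le_psum (hp : 1 ≤ p) {v : ι → ℝ} {c : ℝ} (hc : 0 ≤ c)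
    (h : c ^ p ≤ ∑ i, |v i| ^ p) : c ≤ nrm p v := by
  rw [← Real.rpow_le_rpow_iff hc (nrm_nonneg v) (show (0:ℝ) < p by linarith), nrm_rpow hp]
  exact h

lemma nrm_zero (hp : 1 ≤ p) : nrm p (0 : ι → ℝ) = 0 := by
  simp [nrm, Real.zero_rpow (show p ≠ 0 by linarith),
    Real.zero_rpow (show p⁻¹ ≠ 0 by simp; linarith)]

lemma nrm_add_le (hp : 1 ≤ p) (v w : ι → ℝ) : nrm p (v + w) ≤ nrm p v + nrm p w := by
  simpa [nrm, Pi.add_apply] using Real.Lp_add_le (s := univ) (f := v) (g := w) hp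

lemma eq_zero_of_nrm (hp : 1 ≤ p) {v : ι → ℝ} (h : nrm p v = 0) : v = 0 := by
  have h1 := nrm_rpow hp v
  rw [h, Real.zero_rpow (show p ≠ 0 by linarith), eq_comm,
    sum_eq_zero_iff_of_nonneg fun i _ => Real.rpow_nonneg (abs_nonneg _) _] at h1
  funext i
  have h2 := (Real.rpow_eq_zero (abs_nonneg _) (show p ≠ 0 by linarith)).1 (h1 i (mem_univ i))
  simpa using h2

lemma nrm_neg (v : ι → ℝ) : nrm p (-v) = nrm p v := by simp [nrm]

lemma nrm_sub_comm (v w : ι → ℝ) : nrm p (v - w) = nrm p (w - v) := by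
  rw [← nrm_neg, neg_sub]

lemma nrm_sub_le (hp : 1 ≤ p) (v w : ι → ℝ) : nrm p (v - w) ≤ nrm p v + nrm p w := by
  have := nrm_add_le hp v (-w)
  rwa [nrm_neg, ← sub_eq_add_neg] at this

lemma nrm_sub_le_sub (hp : 1 ≤ p) (u v w : ι → ℝ) :
    nrm p (u - w) ≤ nrm p (u - v) + nrm p (v - w) := by
  have := nrm_add_le hp (u - v) (v - w)
  rwa [sub_add_sub_cancel] at this

lemma abs_nrm_sub_nrm (hp : 1 ≤ p) (v w : ι → ℝ) : |nrm p v - nrm p w| ≤ nrm p (v - w) := by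
  rw [abs_le]
  have h1 := nrm_add_le hp (v - w) w
  have h2 := nrm_add_le hp (w - v) v
  rw [sub_add_cancel] at h1 h2
  rw [nrm_sub_comm w v] at h2
  constructor <;> linarith

lemma nrm_smul (hp : 1 ≤ p) (c : ℝ) (v : ι → ℝ) : nrm p (c • v) = |c| * nrm p v := by
  have hp0 : (0:ℝ) < p := by linarith
  simp only [nrm, Pi.smul_apply, smul_eq_mul, abs_mul,
    Real.mul_rpow (abs_nonneg _) (abs_nonneg _), ← mul_sum]
  rw [Real.mul_rpow (Real.rpow_nonneg (abs_nonneg c) p) (psum_nonneg v),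
    ← Real.rpow_mul (abs_nonneg c), mul_one_div, div_self hp0.ne', Real.rpow_one]

lemma nrm_sum_le (hp : 1 ≤ p) {σ : Type*} (s : Finset σ) (f : σ → ι → ℝ) :
    nrm p (∑ k ∈ s, f k) ≤ ∑ k ∈ s, nrm p (f k) := by
  classical
  induction s using Finset.induction_on with
  | empty => simp [nrm_zero hp]
  | insert a t ha ih =>
    rw [sum_insert ha, sum_insert ha]
    exact (nrm_add_le hp _ _).trans (by linarith)

lemma nrm_wsum_le (hp : 1 ≤ p) {σ : Type*} (s : Finset σ) (w : σ → ℝ) (f : σ → ι → ℝ)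
    (hw : ∀ k ∈ s, 0 ≤ w k) :
    nrm p (∑ k ∈ s, w k • f k) ≤ ∑ k ∈ s, w k * nrm p (f k) := by
  refine (nrm_sum_le hp s _).trans (sum_le_sum fun k hk => ?_)
  rw [nrm_smul hp, abs_of_nonneg (hw k hk)]

lemma nrm_sum_type (hp : 1 ≤ p) (v : ι ⊕ κ → ℝ) :
    nrm p v ^ p = nrm p (fun i => v (Sum.inl i)) ^ p + nrm p (fun k => v (Sum.inr k)) ^ p := by
  rw [nrm_rpow hp, nrm_rpow hp, nrm_rpow hp, Fintype.sum_sum_type]

lemma nrm_inl_le (hp : 1 ≤ p) (v : ι ⊕ κ → ℝ) : nrm p (fun i => v (Sum.inl i)) ≤ nrm p v := by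
  refine le_nrm_of_le_psum hp (nrm_nonneg _) ?_
  rw [← nrm_rpow hp, nrm_sum_type hp]
  have := Real.rpow_nonneg (nrm_nonneg (p := p) (fun k => v (Sum.inr k))) p
  linarith

lemma nrm_inr_le (hp : 1 ≤ p) (v : ι ⊕ κ → ℝ) : nrm p (fun i => v (Sum.inr i)) ≤ nrm p v := by
  refine le_nrm_of_le_psum hp (nrm_nonneg _) ?_
  rw [← nrm_rpow hp v, nrm_sum_type hp]
  have := Real.rpow_nonneg (nrm_nonneg (p := p) (fun k => v (Sum.inl k))) p
  linarith

lemma nrm_le_inl_add_inr (hp : 1 ≤ p) (v : ι ⊕ κ → ℝ) :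
    nrm p v ≤ nrm p (fun i => v (Sum.inl i)) + nrm p (fun k => v (Sum.inr k)) := by
  refine nrm_le_of_psum_le hp (add_nonneg (nrm_nonneg _) (nrm_nonneg _)) ?_
  rw [← nrm_rpow hp, nrm_sum_type hp]
  exact Real.add_rpow_le_rpow_add (nrm_nonneg _) (nrm_nonneg _) hp

lemma nrm_slice_le (hp : 1 ≤ p) (v : ι × κ → ℝ) (i : ι) :
    nrm p (fun k => v (i, k)) ≤ nrm p v := by
  refine le_nrm_of_le_psum hp (nrm_nonneg _) ?_
  rw [nrm_rpow hp, Fintype.sum_prod_type]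
  exact single_le_sum (f := fun i => ∑ k, |v (i, k)| ^ p) (fun j _ => psum_nonneg _) (mem_univ i)

lemma nrm_le_sum_slice (hp : 1 ≤ p) (v : ι × κ → ℝ) :
    nrm p v ≤ ∑ i, nrm p (fun k => v (i, k)) := by
  classical
  let f : ι → ι × κ → ℝ := fun i q => if q.1 = i then v q else 0
  have hv : v = ∑ i, f i := by ext ⟨i, k⟩; simp [f]
  conv_lhs => rw [hv]
  refine (nrm_sum_le hp _ _).trans (sum_le_sum fun i _ => le_of_eq ?_)
  rw [nrm, nrm, Fintype.sum_prod_type, Fintype.sum_eq_single i]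
  · simp [f]
  · intro j hj
    simp [f, hj, Real.zero_rpow (show p ≠ 0 by linarith)]

/-- Averaged blocks: controls the norm of a scaled family of blocks. -/
lemma nrm_avg_le (hp : 1 ≤ p) (g : ι → κ → ℝ) {c : ℝ} (hc : 0 ≤ c) (h : ∀ i, nrm p (g i) ≤ c) :
    nrm p (fun q : ι × κ => (Fintype.card ι : ℝ) ^ (-(1 / p)) * g q.1 q.2) ≤ c := by
  refine nrm_le_of_psum_le hp hc ?_
  rw [Fintype.sum_prod_type]
  have h1 : ∀ i, ∑ k, |(Fintype.card ι : ℝ) ^ (-(1 / p)) * g i k| ^ p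
      ≤ (Fintype.card ι : ℝ)⁻¹ * c ^ p := by
    intro i
    simp only [abs_mul, abs_of_nonneg (Real.rpow_nonneg (Nat.cast_nonneg (Fintype.card ι)) _),
      Real.mul_rpow (Real.rpow_nonneg (Nat.cast_nonneg _) _) (abs_nonneg _), ← mul_sum]
    rw [← Real.rpow_mul (Nat.cast_nonneg _), neg_mul, one_div, inv_mul_cancel₀ (by linarith),
      Real.rpow_neg_one, ← nrm_rpow hp]
    exact mul_le_mul_of_nonneg_left (Real.rpow_le_rpow (nrm_nonneg _) (h i) (by linarith))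
      (by positivity)
  refine (sum_le_sum fun i _ => h1 i).trans ?_
  rw [sum_const, card_univ, nsmul_eq_mul]
  rcases Nat.eq_zero_or_pos (Fintype.card ι) with h0 | h0
  · simp [h0, Real.rpow_nonneg hc]
  · rw [← mul_assoc, mul_inv_cancel₀ (by positivity), one_mul]

lemma le_nrm_avg (hp : 1 ≤ p) (g : ι → κ → ℝ) (s : Finset ι) {c θ : ℝ} (hc : 0 ≤ c)
    (hθ : 0 ≤ θ) (hθ1 : θ ≤ 1) (hι : 0 < Fintype.card ι)
    (hs : θ * (Fintype.card ι : ℝ) ≤ (s.card : ℝ)) (h : ∀ i ∈ s, c ≤ nrm p (g i)) :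
    θ * c ≤ nrm p (fun q : ι × κ => (Fintype.card ι : ℝ) ^ (-(1 / p)) * g q.1 q.2) := by
  refine le_nrm_of_le_psum hp (mul_nonneg hθ hc) ?_
  rw [Fintype.sum_prod_type, Real.mul_rpow hθ hc]
  have h1 : ∀ i ∈ s, (Fintype.card ι : ℝ)⁻¹ * c ^ p
      ≤ ∑ k, |(Fintype.card ι : ℝ) ^ (-(1 / p)) * g i k| ^ p := by
    intro i hi
    simp only [abs_mul, abs_of_nonneg (Real.rpow_nonneg (Nat.cast_nonneg (Fintype.card ι)) _),
      Real.mul_rpow (Real.rpow_nonneg (Nat.cast_nonneg _) _) (abs_nonneg _), ← mul_sum]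
    rw [← Real.rpow_mul (Nat.cast_nonneg _), neg_mul, one_div, inv_mul_cancel₀ (by linarith),
      Real.rpow_neg_one, ← nrm_rpow hp]
    exact mul_le_mul_of_nonneg_left (Real.rpow_le_rpow hc (h i hi) (by linarith))
      (by positivity)
  refine le_trans ?_ ((sum_le_sum h1).trans (sum_le_sum_of_subset_of_nonneg (subset_univ s)
    fun i _ _ => psum_nonneg _))
  rw [sum_const, nsmul_eq_mul, ← mul_assoc]
  refine mul_le_mul_of_nonneg_right ?_ (Real.rpow_nonneg hc p)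
  have hθp : θ ^ p ≤ θ := by
    rcases hθ.eq_or_lt with rfl | h0
    · rw [Real.zero_rpow (by linarith)]
    · simpa using Real.rpow_le_rpow_of_exponent_ge h0 hθ1 hp
  refine hθp.trans ?_
  rw [le_mul_inv_iff₀ (by exact_mod_cast hι)]
  exact hs

lemma nrm_comp_equiv (e : ι ≃ κ) (v : κ → ℝ) : nrm p (fun i => v (e i)) = nrm p v := by
  simp only [nrm]
  rw [Equiv.sum_comp e (fun k => |v k| ^ p)]

end Vale.Agent.P249.Sub
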