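import Vale.Agent.P249.Sub.Radius

namespace Vale.Agent.P249.Sub

open Finset

variable {n : ℕ}

/-- The first element of a set in the order of a permutation, with a default. -/
noncomputable def first (π : Equiv.Perm (Fin n)) (A : Finset (Fin n)) (d : Fin n) : Fin n :=
  if h : A.Nonempty then π.symm ((A.image π).min' (h.image _)) else d

lemma first_mem (π : Equiv.Perm (Fin n)) {A : Finset (Fin n)} (h : A.Nonempty) (d : Fin n) :
    first π A d ∈ A := by
  rw [first, dif_pos h]
  obtain ⟨a, ha, he⟩ := mem_image.1 ((A.image π).min'_mem (h.image _))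
  rw [← he, Equiv.symm_apply_apply]; exact ha

lemma first_le (π : Equiv.Perm (Fin n)) {A : Finset (Fin n)} (d : Fin n) {a : Fin n} (ha : a ∈ A) :
    π (first π A d) ≤ π a := by
  rw [first, dif_pos ⟨a, ha⟩, Equiv.apply_symm_apply]
  exact min'_le _ _ (mem_image_of_mem _ ha)

lemma eq_first (π : Equiv.Perm (Fin n)) {A : Finset (Fin n)} (d : Fin n) {a : Fin n} (ha : a ∈ A)
    (h : ∀ b ∈ A, π a ≤ π b) : first π A d = a :=
  π.injective (le_antisymm (first_le π d ha) (h _ (first_mem π ⟨a, ha⟩ d)))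

/-- Every element of a set is first for the same number of permutations. -/
lemma count_first (A : Finset (Fin n)) (d : Fin n) {z : Fin n} (hz : z ∈ A) :
    ((univ.filter fun π : Equiv.Perm (Fin n) => first π A d = z).card : ℝ) * A.card
      = Fintype.card (Equiv.Perm (Fin n)) := by
  classical
  set S : Fin n → Finset (Equiv.Perm (Fin n)) := fun a => univ.filter fun π => first π A d = a
    with hS
  have hmap : ∀ a ∈ A, ∀ b ∈ A, ∀ π : Equiv.Perm (Fin n), first π A d = a →
      first (π * Equiv.swap a b) A d = b := by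
    intro a ha b hb π hπ
    refine eq_first _ d hb fun c hc => ?_
    simp only [Equiv.Perm.mul_apply, Equiv.swap_apply_right]
    rw [← hπ]
    refine first_le π d ?_
    rw [hπ]
    rcases eq_or_ne c a with rfl | h1
    · rw [Equiv.swap_apply_left]; exact hb
    rcases eq_or_ne c b with rfl | h2
    · rw [Equiv.swap_apply_right]; exact ha
    rw [Equiv.swap_apply_of_ne_of_ne h1 h2]; exact hc
  have heq : ∀ a ∈ A, (S a).card = (S z).card := by
    intro a ha
    refine card_nbij' (fun π => π * Equiv.swap a z) (fun π => π * Equiv.swap a z) ?_ ?_ ?_ ?_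
    · intro π hπ
      simp only [hS, coe_filter, Set.mem_ofPred_eq, mem_univ, true_and] at hπ ⊢
      exact hmap a ha z hz π hπ
    · intro π hπ
      simp only [hS, coe_filter, Set.mem_ofPred_eq, mem_univ, true_and] at hπ ⊢
      rw [Equiv.swap_comm]
      exact hmap z hz a ha π hπ
    · intro π _; simp [mul_assoc]
    · intro π _; simp [mul_assoc]
  have htot : (univ : Finset (Equiv.Perm (Fin n))).card = ∑ a ∈ A, (S a).card :=
    card_eq_sum_card_fiberwise fun π _ => first_mem π ⟨z, hz⟩ d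
  rw [sum_congr rfl heq, sum_const, smul_eq_mul] at htot
  rw [← card_univ, htot]
  push_cast
  ring

lemma harmonic_le {ι : Type*} (lo : ι → ℝ) (m : ℝ) (hm : 0 < m) (Z : Finset ι) :
    ∑ z ∈ Z, 1 / (m + ((Z.filter fun w => lo w ≤ lo z).card : ℝ))
      ≤ Real.log (m + Z.card) - Real.log m := by
  classical
  induction Z using Finset.strongInduction with
  | H Z ih =>
    rcases Z.eq_empty_or_nonempty with rfl | hne
    · simp
    obtain ⟨a, ha, hmax⟩ := exists_max_image Z lo hne
    have hall : Z.filter (fun w => lo w ≤ lo a) = Z := filter_true_of_mem hmax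
    rw [← add_sum_erase Z _ ha, hall]
    have h1 := ih (Z.erase a) (erase_ssubset ha)
    have h2 : ∑ z ∈ Z.erase a, 1 / (m + ((Z.filter fun w => lo w ≤ lo z).card : ℝ))
        ≤ ∑ z ∈ Z.erase a, 1 / (m + (((Z.erase a).filter fun w => lo w ≤ lo z).card : ℝ)) := by
      refine sum_le_sum fun z _ => one_div_le_one_div_of_le (by positivity) ?_
      have := card_le_card (filter_subset_filter (fun w => lo w ≤ lo z) (erase_subset a Z))
      have : (((Z.erase a).filter fun w => lo w ≤ lo z).card : ℝ)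
          ≤ ((Z.filter fun w => lo w ≤ lo z).card : ℝ) := by exact_mod_cast this
      linarith
    have hc : (Z.card : ℝ) = (Z.erase a).card + 1 := by exact_mod_cast (card_erase_add_one ha).symm
    have h3 : 1 / (m + (Z.card : ℝ))
        ≤ Real.log (m + Z.card) - Real.log (m + (Z.erase a).card) := by
      have hpos : 0 < m + ((Z.erase a).card : ℝ) := by positivity
      have h := Real.log_le_sub_one_of_pos (div_pos hpos (show 0 < m + (Z.card : ℝ) by positivity))
      rw [Real.log_div hpos.ne' (by positivity), hc] at h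
      rw [hc]
      have e : (m + ((Z.erase a).card : ℝ)) / (m + (((Z.erase a).card : ℝ) + 1)) - 1
          = -(1 / (m + (((Z.erase a).card : ℝ) + 1))) := by field_simp; ring
      rw [e] at h; linarith
    linarith

lemma window_count (J : ℕ) (lo hi : ℝ) (h : lo ≤ hi) :
    ((univ.filter fun j : Fin J => lo ≤ 1 + (j:ℕ) / (J:ℝ) ∧ 1 + (j:ℕ) / (J:ℝ) < hi).card : ℝ)
      ≤ (J:ℝ) * (hi - lo) + 1 := by
  classical
  set S := univ.filter fun j : Fin J => lo ≤ 1 + (j:ℕ) / (J:ℝ) ∧ 1 + (j:ℕ) / (J:ℝ) < hi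
  rcases S.eq_empty_or_nonempty with hS | hS
  · rw [hS, card_empty, Nat.cast_zero]
    have : 0 ≤ (J:ℝ) * (hi - lo) := mul_nonneg (Nat.cast_nonneg _) (sub_nonneg.2 h)
    linarith
  have hJ : (0:ℝ) < J := by exact_mod_cast hS.choose.pos
  have hsub : S.card ≤ (Finset.Icc (S.min' hS) (S.max' hS)).card :=
    card_le_card fun j hj => mem_Icc.2 ⟨S.min'_le j hj, S.le_max' j hj⟩
  rw [Fin.card_Icc] at hsub
  have h1 := (mem_filter.1 (S.min'_mem hS)).2.1
  have h2 := (mem_filter.1 (S.max'_mem hS)).2.2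
  have hle : (S.min' hS : ℕ) ≤ (S.max' hS : ℕ) := S.min'_le _ (S.max'_mem hS)
  have h3 : (S.card : ℝ) ≤ ((S.max' hS : ℕ) : ℝ) + 1 - ((S.min' hS : ℕ) : ℝ) := by
    have : (S.card : ℝ) ≤ (((S.max' hS : ℕ) + 1 - (S.min' hS : ℕ) : ℕ) : ℝ) := by exact_mod_cast hsub
    rw [Nat.cast_sub (by omega)] at this
    push_cast at this
    exact this
  have h4 : ((S.max' hS : ℕ) : ℝ) / J - ((S.min' hS : ℕ) : ℝ) / J < hi - lo := by linarith
  rw [← sub_div, div_lt_iff₀ hJ] at h4
  linarith

variable (D : Fin n → Fin n → ℝ)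

/-- Random centres: the first point of the order whose ball reaches x. -/
noncomputable def centre (Δ : Fin n → ℝ) (π : Equiv.Perm (Fin n)) (α : ℝ) (x : Fin n) : Fin n :=
  first π (univ.filter fun z => D x z ≤ α * Δ z) x

/-- The dilation belonging to the index j. -/
noncomputable def dil {J : ℕ} (j : Fin J) : ℝ := 1 + (j:ℕ) / (J:ℝ)

variable {D}

lemma dil_bounds {J : ℕ} (j : Fin J) : 1 ≤ dil j ∧ dil j ≤ 2 := by
  have hJ : (0:ℝ) < J := by exact_mod_cast j.pos
  refine ⟨le_add_of_nonneg_right (by positivity), ?_⟩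
  have : ((j:ℕ):ℝ) / J ≤ 1 := by
    rw [div_le_one hJ]; exact_mod_cast j.isLt.le
  rw [dil]; linarith

lemma centre_spec (hD : IsDist D) (Δ : Fin n → ℝ) (hΔ : ∀ z, 0 ≤ Δ z) (π : Equiv.Perm (Fin n))
    {α : ℝ} (hα : 0 ≤ α) (x : Fin n) :
    D x (centre D Δ π α x) ≤ α * Δ (centre D Δ π α x) := by
  have hx : x ∈ univ.filter fun z => D x z ≤ α * Δ z := by
    simp [hD.self, mul_nonneg hα (hΔ x)]
  exact (mem_filter.1 (first_mem π ⟨x, hx⟩ x)).2

lemma centre_bounds (hD : IsDist D) (Δ : Fin n → ℝ) (hΔ : ∀ z, 0 ≤ Δ z)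
    (hlip : ∀ y z, |Δ y - Δ z| ≤ D y z / 16) (π : Equiv.Perm (Fin n))
    {α : ℝ} (hα : 0 ≤ α) (hα2 : α ≤ 2) (x : Fin n) :
    D x (centre D Δ π α x) ≤ 2 * Δ (centre D Δ π α x) ∧
    Δ (centre D Δ π α x) ≤ 8 / 7 * Δ x ∧ Δ x ≤ 9 / 8 * Δ (centre D Δ π α x) := by
  have h1 := centre_spec hD Δ hΔ π hα x
  set z := centre D Δ π α x
  have h2 : D x z ≤ 2 * Δ z := h1.trans (mul_le_mul_of_nonneg_right hα2 (hΔ z))
  have h3 := abs_le.1 (hlip x z)
  exact ⟨h2, by linarith, by linarith⟩

/-- The event that a ball is cut by the random partition. -/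
def isCut (D : Fin n → Fin n → ℝ) (Δ : Fin n → ℝ) (π : Equiv.Perm (Fin n)) (α : ℝ) (x : Fin n)
    (t : ℝ) : Prop :=
  ∃ y, D x y ≤ t ∧ centre D Δ π α y ≠ centre D Δ π α x

lemma cut_imp (hD : IsDist D) {Δ : Fin n → ℝ} (hΔ : ∀ z, 0 < Δ z) (π : Equiv.Perm (Fin n))
    {α : ℝ} (hα : 1 ≤ α) {x : Fin n} {t : ℝ} (ht : 0 ≤ t) (hcut : isCut D Δ π α x t) :
    ∃ z, (D x z - t) / Δ z ≤ α ∧ α < (D x z + t) / Δ z ∧
      first π (univ.filter fun w => (D x w - t) / Δ w ≤ α) x = z := by
  set I := univ.filter fun w => (D x w - t) / Δ w ≤ α with hI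
  have hxI : x ∈ I := by
    simp only [hI, mem_filter, mem_univ, true_and, hD.self]
    exact le_trans (div_nonpos_of_nonpos_of_nonneg (by linarith) (hΔ x).le) (by linarith)
  set f := first π I x
  have hf : f ∈ I := first_mem π ⟨x, hxI⟩ x
  refine ⟨f, (mem_filter.1 hf).2, ?_, rfl⟩
  by_contra hle
  rw [not_lt, div_le_iff₀ (hΔ f)] at hle
  obtain ⟨y, hy, hne⟩ := hcut
  have same : ∀ w, D x w ≤ t → centre D Δ π α w = f := by
    intro w hw
    refine eq_first π w ?_ ?_
    · simp only [mem_filter, mem_univ, true_and]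
      have := hD.tri w x f
      rw [hD.comm w x] at this
      linarith
    · intro b hb
      refine first_le π x ?_
      simp only [hI, mem_filter, mem_univ, true_and] at hb ⊢
      rw [div_le_iff₀ (hΔ b)]
      have := hD.tri x w b
      linarith
  exact hne ((same y hy).trans (same x (by rw [hD.self]; exact ht)).symm)

/-- The probability that a ball is cut. -/
theorem cut_count (hD : IsDist D) (Δ : Fin n → ℝ) (hΔ : ∀ z, 0 < Δ z)
    (hlip : ∀ y z, |Δ y - Δ z| ≤ D y z / 16) (x : Fin n) {t : ℝ} (ht0 : 0 ≤ t)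
    (ht : t ≤ Δ x / 16) (J : ℕ) [DecidablePred fun o : Equiv.Perm (Fin n) × Fin J =>
      isCut D Δ o.1 (dil o.2) x t] :
    ((univ.filter fun o : Equiv.Perm (Fin n) × Fin J => isCut D Δ o.1 (dil o.2) x t).card : ℝ)
      ≤ Fintype.card (Equiv.Perm (Fin n)) * (((5 / 2) * (J:ℝ) * (t / Δ x) + 1) *
        (Real.log ((ball D x (3 * Δ x)).card) - Real.log ((ball D x (Δ x / 2)).card))) := by
  classical
  set P : ℝ := ((Fintype.card (Equiv.Perm (Fin n)) : ℕ) : ℝ)
  set lo : Fin n → ℝ := fun z => (D x z - t) / Δ z with hlo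
  set hi : Fin n → ℝ := fun z => (D x z + t) / Δ z with hhi
  set Bh := ball D x (Δ x / 2) with hBh
  set B3 := ball D x (3 * Δ x) with hB3
  set Z := B3 \ Bh with hZ
  set I : ℝ → Finset (Fin n) := fun α => univ.filter fun w => (D x w - t) / Δ w ≤ α with hI
  have hBI : ∀ α, 1 ≤ α → Bh ⊆ I α ∧ ∀ z ∈ Bh, hi z < 1 := by
    intro α hα
    have key : ∀ z ∈ Bh, hi z < 1 := by
      intro z hz
      have h1 := mem_ball.1 hz
      have h2 := abs_le.1 (hlip x z)
      simp only [hhi]
      rw [div_lt_one (hΔ z)]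
      linarith [hΔ x]
    refine ⟨fun z hz => mem_filter.2 ⟨mem_univ z, ?_⟩, key⟩
    have h1 := key z hz
    simp only [hhi] at h1
    have h2 : (D x z - t) / Δ z ≤ (D x z + t) / Δ z :=
      div_le_div_of_nonneg_right (by linarith) (hΔ z).le
    linarith
  have hIB : ∀ z α, α ≤ 2 → lo z ≤ α → z ∈ B3 := by
    intro z α hα hz
    simp only [hlo] at hz
    rw [div_le_iff₀ (hΔ z)] at hz
    have := mul_le_mul_of_nonneg_right hα (hΔ z).le
    have := abs_le.1 (hlip x z)
    exact mem_ball.2 (by linarith [hΔ x])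
  set C : Fin n → Finset (Fin J) := fun z =>
    univ.filter fun j => lo z ≤ dil j ∧ dil j < hi z with hC
  have hsub : (univ.filter fun o : Equiv.Perm (Fin n) × Fin J => isCut D Δ o.1 (dil o.2) x t)
      ⊆ Z.biUnion fun z => (C z).biUnion fun j =>
        (univ.filter fun π => first π (I (dil j)) x = z) ×ˢ {j} := by
    intro o ho
    obtain ⟨z, h1, h2, h3⟩ := cut_imp hD hΔ o.1 (dil_bounds o.2).1 ht0 (mem_filter.1 ho).2
    have hzZ : z ∈ Z := by
      refine mem_sdiff.2 ⟨hIB z (dil o.2) (dil_bounds o.2).2 h1, fun hb => ?_⟩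
      have := (hBI 1 le_rfl).2 z hb
      simp only [hhi] at this
      have := (dil_bounds o.2).1
      linarith
    simp only [mem_biUnion, mem_product, mem_filter, mem_univ, true_and, mem_singleton]
    exact ⟨z, hzZ, o.2, by simp [hC, hlo, hhi, h1, h2], h3, rfl⟩
  have hm : (0:ℝ) < Bh.card := by
    exact_mod_cast card_pos.2 ⟨x, mem_ball.2 (by rw [hD.self]; linarith [hΔ x])⟩
  have hone : ∀ z ∈ Z, ∀ j ∈ C z, ((univ.filter fun π => first π (I (dil j)) x = z).card : ℝ)
      ≤ P * (1 / ((Bh.card : ℝ) + ((Z.filter fun w => lo w ≤ lo z).card : ℝ))) := by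
    intro z _ j hj
    obtain ⟨h1, -⟩ := (mem_filter.1 hj).2
    have hzI : z ∈ I (dil j) := mem_filter.2 ⟨mem_univ z, h1⟩
    have hcnt : Bh.card + (Z.filter fun w => lo w ≤ lo z).card ≤ (I (dil j)).card := by
      rw [← card_union_of_disjoint]
      · refine card_le_card (union_subset (hBI _ (dil_bounds j).1).1 fun w hw => ?_)
        exact mem_filter.2 ⟨mem_univ w, (mem_filter.1 hw).2.trans h1⟩
      · rw [disjoint_left]
        exact fun w hw hw' => (mem_sdiff.1 (mem_filter.1 hw').1).2 hw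
    rw [mul_one_div, le_div_iff₀ (by positivity)]
    refine le_trans ?_ (count_first (I (dil j)) x hzI).le
    exact mul_le_mul_of_nonneg_left (by exact_mod_cast hcnt) (Nat.cast_nonneg _)
  have hwin : ∀ z ∈ Z, ((C z).card : ℝ) ≤ (5 / 2) * J * (t / Δ x) + 1 := by
    intro z hz
    have h1 := mem_ball.1 (mem_sdiff.1 hz).1
    have h2 := abs_le.1 (hlip x z)
    have hz34 : 4 / 5 * Δ x ≤ Δ z := by linarith [hΔ x]
    refine (window_count J (lo z) (hi z) (div_le_div_of_nonneg_right (by linarith) (hΔ z).le)).trans ?_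
    simp only [hlo, hhi, ← sub_div]
    rw [show D x z + t - (D x z - t) = 2 * t by ring]
    have h5 : 2 * t / Δ z ≤ 5 / 2 * (t / Δ x) := by
      rw [mul_div_assoc', div_le_div_iff₀ (hΔ z) (hΔ x)]
      linarith [mul_le_mul_of_nonneg_left hz34 ht0]
    have := mul_le_mul_of_nonneg_left h5 (Nat.cast_nonneg (α := ℝ) J)
    linarith
  have hc0 : 0 ≤ (5 / 2) * (J:ℝ) * (t / Δ x) + 1 := by
    have := div_nonneg ht0 (hΔ x).le
    positivity
  calc ((univ.filter fun o : Equiv.Perm (Fin n) × Fin J => isCut D Δ o.1 (dil o.2) x t).card : ℝ)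
      ≤ ∑ z ∈ Z, ∑ j ∈ C z, ((univ.filter fun π => first π (I (dil j)) x = z).card : ℝ) := by
        refine (Nat.cast_le.2 ((card_le_card hsub).trans (card_biUnion_le.trans
          (sum_le_sum fun z _ => card_biUnion_le)))).trans (le_of_eq ?_)
        simp [card_product]
    _ ≤ ∑ z ∈ Z, ((5 / 2) * J * (t / Δ x) + 1) *
          (P * (1 / ((Bh.card : ℝ) + ((Z.filter fun w => lo w ≤ lo z).card : ℝ)))) := by
        refine sum_le_sum fun z hz => (sum_le_sum (hone z hz)).trans ?_
        rw [sum_const, nsmul_eq_mul]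
        exact mul_le_mul_of_nonneg_right (hwin z hz) (by positivity)
    _ ≤ _ := by
        rw [← mul_sum, ← mul_sum, mul_left_comm]
        refine mul_le_mul_of_nonneg_left (mul_le_mul_of_nonneg_left
          ((harmonic_le lo _ hm Z).trans (sub_le_sub_right (le_of_eq ?_) _)) hc0) (Nat.cast_nonneg _)
        congr 1
        rw [← Nat.cast_add]
        congr 1
        have hBB : Bh ⊆ B3 := ball_mono (by linarith [hΔ x])
        rw [hZ, add_comm, card_sdiff_add_card_eq_card hBB]

/-- The cut bounds of geometrically separated scales telescope. -/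
lemma telescope_log (hD : IsDist D) (x : Fin n) (s : ℕ → ℝ) (hs : ∀ i, 0 ≤ s i)
    (h8 : ∀ i, 8 * s (i + 1) ≤ s i) (W : ℕ) :
    ∑ i ∈ range W, (Real.log ((ball D x (3 * s i)).card) - Real.log ((ball D x (s i / 2)).card))
      ≤ Real.log n := by
  set f : ℝ → ℝ := fun r => Real.log ((ball D x r).card) with hf
  have hpos : ∀ r, 0 ≤ r → 1 ≤ ((ball D x r).card : ℝ) := fun r hr => by
    exact_mod_cast card_pos.2 ⟨x, mem_ball.2 (by rw [hD.self]; exact hr)⟩
  have hstep : ∀ i ∈ range W, f (3 * s i) - f (s i / 2) ≤ f (3 * s i) - f (3 * s (i + 1)) := by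
    intro i _
    refine sub_le_sub_left (Real.log_le_log (zero_lt_one.trans_le (hpos _ (by linarith [hs (i+1)]))) ?_) _
    exact_mod_cast card_le_card (ball_mono (D := D) (x := x) (show 3 * s (i + 1) ≤ s i / 2 by linarith [h8 i, hs (i + 1)]))
  refine (sum_le_sum hstep).trans ?_
  rw [sum_range_sub' (fun i => f (3 * s i))]
  have h1 : 0 ≤ f (3 * s W) := Real.log_nonneg (hpos _ (by linarith [hs W]))
  have h2 : f (3 * s 0) ≤ Real.log n := by
    refine Real.log_le_log (zero_lt_one.trans_le (hpos _ (by linarith [hs 0]))) ?_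
    exact_mod_cast (card_le_univ _).trans (le_of_eq (Fintype.card_fin n))
  linarith

end Vale.Agent.P249.Sub
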