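import Mathlib

namespace Vale.Agent.P249.Sub

open Finset

/-- A finite metric, given by its distance function. -/
structure IsDist {V : Type*} (D : V → V → ℝ) : Prop where
  self : ∀ x, D x x = 0
  comm : ∀ x y, D x y = D y x
  tri : ∀ x y z, D x z ≤ D x y + D y z
  pos : ∀ x y, x ≠ y → 0 < D x y

lemma IsDist.nonneg {V : Type*} {D : V → V → ℝ} (h : IsDist D) (x y : V) : 0 ≤ D x y := by
  have h1 := h.tri x y x
  rw [h.self, h.comm y x] at h1
  linarith

variable {V : Type*} [Fintype V]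

/-- Closed balls. -/
noncomputable def ball (D : V → V → ℝ) (x : V) (r : ℝ) : Finset V :=
  univ.filter (fun y => D x y ≤ r)

/-- Open balls. -/
noncomputable def oball (D : V → V → ℝ) (x : V) (r : ℝ) : Finset V :=
  univ.filter (fun y => D x y < r)

lemma mem_ball {D : V → V → ℝ} {x y : V} {r : ℝ} : y ∈ ball D x r ↔ D x y ≤ r := by simp [ball]

lemma mem_oball {D : V → V → ℝ} {x y : V} {r : ℝ} : y ∈ oball D x r ↔ D x y < r := by simp [oball]

lemma ball_mono {D : V → V → ℝ} {x : V} {r r' : ℝ} (h : r ≤ r') : ball D x r ⊆ ball D x r' :=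
  fun y hy => mem_ball.2 ((mem_ball.1 hy).trans h)

/-- The least radius of a closed ball about x with at least K points. -/
noncomputable def rad (D : V → V → ℝ) (K : ℕ) (x : V) : ℝ :=
  if h : (univ.filter (fun y => K ≤ (ball D x (D x y)).card)).Nonempty then
    (univ.filter (fun y => K ≤ (ball D x (D x y)).card)).inf' h (D x)
  else 0

variable {D : V → V → ℝ} {K : ℕ}

lemma rad_nonempty (hK : K ≤ Fintype.card V) (x : V) :
    (univ.filter (fun y => K ≤ (ball D x (D x y)).card)).Nonempty := by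
  obtain ⟨y, -, hy⟩ := exists_max_image univ (D x) ⟨x, mem_univ x⟩
  refine ⟨y, mem_filter.2 ⟨mem_univ y, ?_⟩⟩
  rwa [show ball D x (D x y) = univ from eq_univ_of_forall fun w => mem_ball.2 (hy w (mem_univ w))]

lemma rad_attained (hK : K ≤ Fintype.card V) (x : V) :
    ∃ y, rad D K x = D x y ∧ K ≤ (ball D x (rad D K x)).card := by
  obtain ⟨y, hy, he⟩ := exists_mem_eq_inf' (rad_nonempty (D := D) hK x) (D x)
  have h : rad D K x = D x y := by rw [rad, dif_pos (rad_nonempty hK x)]; exact he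
  exact ⟨y, h, by rw [h]; exact (mem_filter.1 hy).2⟩

lemma rad_le_of_mem (hK : K ≤ Fintype.card V) (x y : V) (hy : K ≤ (ball D x (D x y)).card) :
    rad D K x ≤ D x y := by
  rw [rad, dif_pos (rad_nonempty hK x)]
  exact inf'_le _ (mem_filter.2 ⟨mem_univ y, hy⟩)

lemma rad_le (hK1 : 1 ≤ K) (hK : K ≤ Fintype.card V) {x : V} {r : ℝ}
    (hr : K ≤ (ball D x r).card) : rad D K x ≤ r := by
  obtain ⟨y, hy, hmax⟩ := exists_max_image (ball D x r) (D x) (card_pos.1 (by omega))
  refine (rad_le_of_mem hK x y (hr.trans (card_le_card fun w hw => mem_ball.2 (hmax w hw)))).trans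
    (mem_ball.1 hy)

lemma card_oball_rad (hK1 : 1 ≤ K) (hK : K ≤ Fintype.card V) (x : V) :
    (oball D x (rad D K x)).card < K := by
  by_contra h
  rw [not_lt] at h
  obtain ⟨y, hy, hmax⟩ := exists_max_image (oball D x (rad D K x)) (D x) (card_pos.1 (by omega))
  have h1 := rad_le_of_mem hK x y (h.trans (card_le_card fun w hw => mem_ball.2 (hmax w hw)))
  have h2 := mem_oball.1 hy
  linarith

lemma rad_lip (hD : IsDist D) (hK1 : 1 ≤ K) (hK : K ≤ Fintype.card V) (x y : V) :
    rad D K x ≤ rad D K y + D x y := by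
  obtain ⟨w, -, hw⟩ := rad_attained (D := D) hK y
  refine rad_le hK1 hK (hw.trans (card_le_card fun u hu => mem_ball.2 ?_))
  have := hD.tri x y u
  have := mem_ball.1 hu
  linarith

lemma abs_rad_sub (hD : IsDist D) (hK1 : 1 ≤ K) (hK : K ≤ Fintype.card V) (x y : V) :
    |rad D K x - rad D K y| ≤ D x y := by
  have h1 := rad_lip hD hK1 hK x y
  have h2 := rad_lip hD hK1 hK y x
  rw [hD.comm y x] at h2
  rw [abs_le]; constructor <;> linarith

lemma rad_mono {K' : ℕ} (hK1 : 1 ≤ K') (h : K' ≤ K) (hK : K ≤ Fintype.card V) (x : V) :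
    rad D K' x ≤ rad D K x := by
  obtain ⟨w, -, hw⟩ := rad_attained (D := D) hK x
  exact rad_le hK1 (h.trans hK) (h.trans hw)

lemma rad_pos (hD : IsDist D) (hK2 : 2 ≤ K) (hK : K ≤ Fintype.card V) (x : V) :
    0 < rad D K x := by
  classical
  obtain ⟨y, hy, hc⟩ := rad_attained (D := D) hK x
  by_contra h
  rw [not_lt] at h
  have hsub : ball D x (rad D K x) ⊆ {x} := by
    intro w hw
    rw [mem_singleton]
    by_contra hne
    have := hD.pos x w (Ne.symm hne)
    have := mem_ball.1 hw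
    linarith
  have := card_le_card hsub
  rw [card_singleton] at this
  omega

lemma rad_le_bound (hK : K ≤ Fintype.card V) (x : V) {B : ℝ} (hB : ∀ y, D x y ≤ B) :
    rad D K x ≤ B := by
  obtain ⟨y, hy, -⟩ := rad_attained (D := D) hK x
  rw [hy]; exact hB y

/-- Greedy skeleton. -/
theorem exists_skeleton (hD : IsDist D) (σ : V → ℝ) (hσ : ∀ x, 0 ≤ σ x) (U : Finset V) :
    ∃ S : Finset V, S ⊆ U ∧ (∀ x ∈ U, ∃ s ∈ S, D x s ≤ 2 * σ x) ∧
      ∀ s ∈ S, ∀ s' ∈ S, s ≠ s' → Disjoint (ball D s (σ s)) (ball D s' (σ s')) := by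
  classical
  induction U using Finset.strongInduction with
  | H U ih =>
    rcases U.eq_empty_or_nonempty with rfl | hne
    · exact ⟨∅, subset_refl _, by simp, by simp⟩
    obtain ⟨m, hm, hmin⟩ := exists_min_image U σ hne
    obtain ⟨S, hS, hcov, hdis⟩ := ih (U.filter fun x => ¬ D x m ≤ 2 * σ x)
      (filter_ssubset.2 ⟨m, hm, by simp only [hD.self, not_not]; linarith [hσ m]⟩)
    have hS' : ∀ s ∈ S, s ∈ U ∧ ¬ D s m ≤ 2 * σ s := fun s hs => mem_filter.1 (hS hs)
    have key : ∀ s ∈ S, Disjoint (ball D m (σ m)) (ball D s (σ s)) := by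
      intro s hs
      rw [disjoint_left]
      intro w hw1 hw2
      obtain ⟨hsU, hsn⟩ := hS' s hs
      apply hsn
      have h1 := hD.tri s w m
      have h2 := mem_ball.1 hw1
      have h3 := mem_ball.1 hw2
      have h4 := hmin s hsU
      rw [hD.comm w m] at h1
      linarith
    refine ⟨insert m S, insert_subset hm (fun s hs => (hS' s hs).1), fun x hx => ?_, ?_⟩
    · by_cases h : D x m ≤ 2 * σ x
      · exact ⟨m, mem_insert_self _ _, h⟩
      · obtain ⟨s, hs, hs2⟩ := hcov x (mem_filter.2 ⟨hx, h⟩)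
        exact ⟨s, mem_insert_of_mem hs, hs2⟩
    · intro s hs s' hs' hne
      rcases mem_insert.1 hs with h1 | h1 <;> rcases mem_insert.1 hs' with h2 | h2
      · exact absurd (h1.trans h2.symm) hne
      · rw [h1]; exact key s' h2
      · rw [h2]; exact (key s h1).symm
      · exact hdis s h1 s' h2 hne

/-- The skeleton has few points when its balls lie in a small set. -/
lemma skeleton_card (K : ℕ) (σ : V → ℝ) (S B : Finset V)
    (hdis : ∀ s ∈ S, ∀ s' ∈ S, s ≠ s' → Disjoint (ball D s (σ s)) (ball D s' (σ s')))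
    (hin : ∀ s ∈ S, ball D s (σ s) ⊆ B) (hcard : ∀ s ∈ S, K ≤ (ball D s (σ s)).card) :
    S.card * K ≤ B.card := by
  classical
  calc S.card * K ≤ ∑ s ∈ S, (ball D s (σ s)).card := by
        simpa using card_nsmul_le_sum S _ K hcard
    _ = (S.biUnion fun s => ball D s (σ s)).card :=
        (card_biUnion fun s hs s' hs' h => hdis s hs s' hs' h).symm
    _ ≤ B.card := card_le_card (biUnion_subset.2 hin)

end Vale.Agent.P249.Sub
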